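import Crest.Agent.X261.Psh.Kis71
import Crest.Agent.X261.Psh.Int
import Crest.Agent.X277.AN.LSE
import Crest.Agent.R281.Kp0_487

/-!
# Row 261, package REG (helper71), file `Defs`

Bounded geometry data `BG` of an atlas (compact manifolds, covers of compact manifolds),
singular `ω`-psh functions `PshW`, the uniformity condition `Unif`, the log-sum-exp gluing `lse`
and its loss of curvature `los`.
-/

set_option autoImplicit false
set_option linter.dupNamespace false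
set_option linter.unusedSectionVars false

open Set Filter Topology Metric
open scoped ContDiff ComplexConjugate

noncomputable section

namespace Crest.Agent.X261.Reg

open Crest.Agent.R275.Geo Crest.Agent.R275.Core144
open Crest.Agent.R273.Defs_333 (HM)
open Crest.Agent.R273.Hess_333 Crest.Agent.R273.HessB_333
open Crest.Agent.R273.Kah_333 (hsf)
open Crest.Agent.R281.Kp_487 (KP)
open Crest.Agent.X277.AN (Mat qf Nn gf pr)
open Crest.Agent.X261.Psh Crest.Agent.X261.Psh.Kis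

variable {n : ℕ} {M : Type} [TopologicalSpace M] {A : Atl n M}

/-- the local potentials of the curvature of a Hermitian metric -/
def kp {L : LB A} (h : HM L) : KP A where
  u i x := -Real.log (h.w i x)
  sm i := R273.HM_333.wt_smooth h i
  tr i j z hz := by
    have ho : IsOpen (A.ov i j) := isOpen_ov i j
    have e : (fun w => -Real.log (h.w i ((A.e i).symm w)) - -Real.log (h.w j ((A.e i).symm w)))
        =ᶠ[𝓝 z] fun w => Real.log (‖L.g i j ((A.e i).symm w)‖ ^ 2) := by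
      filter_upwards [ho.mem_nhds hz] with w hw
      have h1 := R273.HM_333.wt_tr h hw
      unfold HM.wt at h1
      rw [(A.e j).left_inv hw.2] at h1
      linarith
    rw [hess_congr e]
    refine hess_log_norm ?_ (L.ne_zero i j _)
    filter_upwards [ho.mem_nhds hz] with w hw
    exact (L.hol i j).differentiableAt (ho.mem_nhds hw)



/-- bounded geometry data -/
structure BG (A : Atl n M) (g : Mat A) where
  χ : A.ι → M → ℝ
  sm : ∀ j, A.Sm (χ j)
  cpt : ∀ j, IsCompact (tsupport (χ j))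
  sub : ∀ j, tsupport (χ j) ⊆ (A.e j).source
  lf : ∀ K : Set M, IsCompact K → {j | (K ∩ (A.e j).source).Nonempty}.Finite
  one : ∀ x, ∃ j, χ j x = 1
  nn : Nn g
  m : ℕ
  card : ∀ (x : M) (s : Finset A.ι), (∀ j ∈ s, x ∈ tsupport (χ j)) → s.card ≤ m
  B : ℝ
  B1 : 1 ≤ B
  bd : ∀ j x, χ j x ^ 2 ≤ B
  lev : ∀ j i, ∀ x ∈ (A.e i).source, ∀ (t : ℂ) (ξ : Fin n → ℂ),
    0 ≤ χ j x ^ 2 * ‖t‖ ^ 2 + 2 * (conj t * pr (gf A (fun y => χ j y ^ 2) i x) ξ).re +
      (qf (hsf A (fun y => χ j y ^ 2) i x) ξ + B * qf (g i x) ξ)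
  r : ℝ
  r0 : 0 < r
  ball : ∀ j, ∀ x ∈ tsupport (χ j), closedBall (A.e j x) r ⊆ (A.e j).target
  Λ : ℝ
  Λ1 : 1 ≤ Λ
  tr : ∀ i j, ∀ x ∈ tsupport (χ i), x ∈ tsupport (χ j) → ∀ z ∈ closedBall (A.e i x) (r / Λ),
    (A.e i).symm z ∈ (A.e j).source ∧
      dist (A.e j ((A.e i).symm z)) (A.e j x) ≤ Λ * dist z (A.e i x)

/-- the function `u + potential` in the chart `j` -/
def uj (H : KP A) (u : M → EReal) (j : A.ι) (z : Cn n) : EReal :=
  u ((A.e j).symm z) + (H.wt j z : ℝ)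

/-- `u` is `ω`-plurisubharmonic, `ω = dd^c H` (values in `[-∞, ∞)`) -/
def PshW (H : KP A) (u : M → EReal) : Prop := ∀ j, IsPsh (A.e j).target (uj H u j)

namespace BG

variable {g : Mat A} (G : BG A g)

/-- the potentials are uniformly Lipschitz near the supports -/
def PB (H : KP A) (L : ℝ) : Prop :=
  0 ≤ L ∧ ∀ j, ∀ x ∈ tsupport (G.χ j), ∀ z ∈ closedBall (A.e j x) G.r,
    |H.wt j z - H.wt j (A.e j x)| ≤ L * dist z (A.e j x)

/-- `u ≤ C`, and `u` is not `≡ -∞` uniformly -/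
def Unif (u : M → EReal) (C : ℝ) : Prop :=
  (∀ x, u x ≤ C) ∧ ∀ j, ∀ x ∈ tsupport (G.χ j), ∃ z ∈ closedBall (A.e j x) (G.r / 2),
    ((-C : ℝ) : EReal) ≤ u ((A.e j).symm z)

/-- `∑ χ_j² e^{p a_j}` -/
def sS (p : ℝ) (a : A.ι → M → ℝ) (x : M) : ℝ := ∑ᶠ j, G.χ j x ^ 2 * Real.exp (p * a j x)

/-- `∑ 1_{supp χ_j} e^{p a_j}` -/
def sT (p : ℝ) (a : A.ι → M → ℝ) (x : M) : ℝ :=
  ∑ᶠ j, (tsupport (G.χ j)).indicator (fun y => Real.exp (p * a j y)) x

/-- log-sum-exp gluing -/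
def lse (p : ℝ) (a : A.ι → M → ℝ) (x : M) : ℝ := p⁻¹ * Real.log (G.sS p a x)

/-- the loss of curvature of the gluing -/
def los (p : ℝ) (a : A.ι → M → ℝ) (x : M) : ℝ := G.B / p * (G.sT p a x / G.sS p a x)

/-- the correction `(1/p) log ∑ χ_j²` -/
def cor (p : ℝ) : M → ℝ := G.lse p fun _ _ => 0

/-- the radii -/
def rad (μ : ℕ) : ℝ := G.r / (6 * G.Λ) / 3 ^ μ

/-- `y` is in one of the chart balls of radius `ρ` around `x` -/
def Near (ρ : ℝ) (x y : M) : Prop :=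
  ∃ j, x ∈ tsupport (G.χ j) ∧ ∃ z ∈ closedBall (A.e j x) ρ, y = (A.e j).symm z

end BG

/-- local smoothing operators -/
structure SmOp (S : ℝ → (Cn n → EReal) → Cn n → ℝ) : Prop where
  sm : ∀ (D : Set (Cn n)) (f : Cn n → EReal) (ε : ℝ) (z : Cn n), IsOpen D → IsPsh D f → Dn D f →
    0 < ε → closedBall z (3 * ε) ⊆ D →
    ContDiffAt ℝ ∞ (S ε f) z ∧ (∀ ξ, 0 ≤ qf (hess (S ε f) z) ξ) ∧
      bsup f z ε ≤ S ε f z ∧ (S ε f z : EReal) ≤ bsup f z (3 * ε)
  mono : ∀ (D D' : Set (Cn n)) (f f' : Cn n → EReal) (ε : ℝ) (z : Cn n) (a : ℝ), IsOpen D →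
    IsPsh D f → Dn D f → IsOpen D' → IsPsh D' f' → Dn D' f' → 0 < ε →
    closedBall z (3 * ε) ⊆ D → closedBall z (3 * ε) ⊆ D' →
    (∀ y ∈ closedBall z (3 * ε), f' y ≤ f y + a) → S ε f' z ≤ S ε f z + a

end Crest.Agent.X261.Reg
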